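import Vale.Agent.Lib.P355.Disc2

/-!
# P355: a field condition for complete sets of mutually unbiased bases

If seven mutually unbiased bases of `ℂ⁶` exist (the only possible value of `N(6)` above `5`), then the
field generated by the products `⟨e_a, v⟩⟨v, e_c⟩` (`e` one of the bases, `v` the other vectors)
contains `i`. In particular the coordinates cannot all be `N`-th roots of unity with `4 ∤ N`.
-/

namespace Vale.Agent.Results.P355.CompleteSetField

open ComplexConjugate Finset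

/-- the standard inner product of `ℂ^d` -/
noncomputable def ip {d : ℕ} (u v : Fin d → ℂ) : ℂ := ∑ k, conj (u k) * v k

/-- `B 0, ..., B (d-1)` is an orthonormal basis of `ℂ^d` -/
def IsONB {d : ℕ} (B : Fin d → Fin d → ℂ) : Prop := ∀ i j, ip (B i) (B j) = if i = j then 1 else 0

/-- the bases `B` and `C` are mutually unbiased -/
def MU {d : ℕ} (B C : Fin d → Fin d → ℂ) : Prop := ∀ i j, ‖ip (B i) (C j)‖ ^ 2 = 1 / (d : ℝ)

/-- the standard basis -/
def std (d : ℕ) : Fin d → Fin d → ℂ := fun i k => if i = k then 1 else 0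

/-- `d + 1` pairwise mutually unbiased orthonormal bases of `ℂ^d` -/
def IsComplete {d : ℕ} (E : Fin (d + 1) → Fin d → Fin d → ℂ) : Prop :=
  (∀ b, IsONB (E b)) ∧ ∀ b b', b ≠ b' → MU (E b) (E b')

/-- the vectors of the basis `B` of `ℂ^d` have coordinates `(1/√d) * β i * δ k * ζ` with a phase
`β i` for the vector, the given phase `δ k` for the coordinate and an `N`-th root of unity `ζ` -/
def RootCoord {d : ℕ} (N : ℕ) (δ : Fin d → ℂ) (B : Fin d → Fin d → ℂ) : Prop :=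
  ∀ i, ∃ β : ℂ, ‖β‖ = 1 ∧ ∀ k, ∃ ζ : ℂ, ζ ^ N = 1 ∧ B i k = β * δ k * ζ / (Real.sqrt d : ℂ)

/-! ### Proofs -/

theorem conj_ip {d : ℕ} (u v : Fin d → ℂ) : conj (ip u v) = ip v u := by
  unfold ip
  rw [map_sum]
  refine sum_congr rfl fun k _ => ?_
  rw [map_mul, Complex.conj_conj]; ring

/-- coordinates with respect to the basis number zero -/
noncomputable def co {d : ℕ} (E : Fin (d + 1) → Fin d → Fin d → ℂ) (b j a : Fin d) : ℂ :=
  ip (E 0 a) (E b.succ j)

theorem co_ip {d : ℕ} (E : Fin (d + 1) → Fin d → Fin d → ℂ) (h : IsONB (E 0)) (b b' i j : Fin d) :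
    P355.ipc (co E b i) (co E b' j) = ip (E b.succ i) (E b'.succ j) :=
  P355.parseval (E 0) h (E b.succ i) (E b'.succ j)

theorem co_props {d : ℕ} (E : Fin (d + 1) → Fin d → Fin d → ℂ) (hE : IsComplete E) :
    (∀ b j k, ‖co E b j k‖ ^ 2 = 1 / (d:ℝ)) ∧
    (∀ b i j, P355.ipc (co E b i) (co E b j) = if i = j then 1 else 0) ∧
    (∀ b b', b ≠ b' → ∀ i j, ‖P355.ipc (co E b i) (co E b' j)‖ ^ 2 = 1 / (d:ℝ)) := by
  refine ⟨fun b j k => hE.2 0 b.succ (Fin.succ_ne_zero b).symm k j, fun b i j => ?_,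
    fun b b' hb i j => ?_⟩
  · rw [co_ip E (hE.1 0)]
    exact hE.1 b.succ i j
  · rw [co_ip E (hE.1 0)]
    exact hE.2 b.succ b'.succ (fun h => hb (Fin.succ_injective d h)) i j

theorem root_mem (N m : ℕ) (hm : Odd m) (hN : N = m ∨ N = 2 * m) (ζ : ℂ)
    (hζ : IsPrimitiveRoot ζ m) (x : ℂ) (hx : x ^ N = 1) :
    x ∈ (IntermediateField.adjoin ℚ {ζ}).toSubfield := by
  have hmem : ζ ∈ (IntermediateField.adjoin ℚ {ζ}).toSubfield :=
    IntermediateField.mem_adjoin_simple_self ℚ ζ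
  have : NeZero m := ⟨hm.pos.ne'⟩
  have hpow : ∀ y : ℂ, y ^ m = 1 → y ∈ (IntermediateField.adjoin ℚ {ζ}).toSubfield := by
    intro y hy
    obtain ⟨r, _, hr⟩ := hζ.eq_pow_of_pow_eq_one hy
    rw [← hr]
    exact Subfield.pow_mem _ hmem r
  rcases hN with rfl | rfl
  · exact hpow x hx
  · have h1 : x ^ m * x ^ m = 1 := by rw [← pow_add, ← two_mul]; exact hx
    rcases mul_self_eq_one_iff.1 h1 with h2 | h2
    · exact hpow x h2
    · have h3 := hpow (-x) (by rw [hm.neg_pow, h2, neg_neg])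
      have h4 := Subfield.neg_mem _ h3
      rwa [neg_neg] at h4

theorem roots_case (N : ℕ) (hN : ¬ 4 ∣ N) (δ : Fin 6 → ℂ) (hδ : ∀ k, ‖δ k‖ = 1)
    (B : Fin 6 → Fin 6 → Fin 6 → ℂ) (h1 : ∀ b, IsONB (B b)) (h0 : ∀ b, MU (std 6) (B b))
    (h2 : ∀ b b', b ≠ b' → MU (B b) (B b')) (hr : ∀ b, RootCoord N δ (B b)) : False := by
  obtain ⟨m, hm, hNm⟩ : ∃ m, Odd m ∧ (N = m ∨ N = 2 * m) := by
    rcases Nat.even_or_odd N with h | h
    · obtain ⟨m, hm⟩ := h
      refine ⟨m, ?_, Or.inr (by omega)⟩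
      rcases Nat.even_or_odd m with h' | h'
      · obtain ⟨s, hs⟩ := h'
        exact absurd ⟨s, by omega⟩ hN
      · exact h'
    · exact ⟨N, h, Or.inl rfl⟩
  have hζ := Complex.isPrimitiveRoot_exp m hm.pos.ne'
  set ζ := Complex.exp (2 * Real.pi * Complex.I / m) with hζdef
  set K := (IntermediateField.adjoin ℚ {ζ}).toSubfield with hK
  apply P355.I_notMem m hm ζ hζ
  let B' : Fin 6 → Fin 6 → Fin 6 → ℂ := fun b j k => conj (δ k) * B b j k
  have hδδ : ∀ k, conj (δ k) * δ k = 1 := by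
    intro k
    rw [mul_comm, Complex.mul_conj, Complex.normSq_eq_norm_sq, hδ k]; simp
  have hip : ∀ b b' i j, P355.ipc (B' b i) (B' b' j) = ip (B b i) (B b' j) := by
    intro b b' i j
    unfold P355.ipc ip
    refine sum_congr rfl fun k _ => ?_
    simp only [B', map_mul, Complex.conj_conj]
    linear_combination (conj (B b i k) * B b' j k) * hδδ k
  refine P355.I_mem B' ?_ ?_ ?_ K ?_
  · intro b j k
    have h3 := h0 b k j
    have h4 : ip (std 6 k) (B b j) = B b j k := by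
      unfold ip std
      simp
    rw [h4] at h3
    simp only [B', norm_mul, RCLike.norm_conj, hδ k, one_mul]
    exact h3
  · intro b i j
    rw [hip]; exact h1 b i j
  · intro b b' hb i j
    rw [hip]; exact h2 b b' hb i j
  · intro b j a c
    obtain ⟨β, hβ, hx⟩ := hr b j
    obtain ⟨x, hx1, hx2⟩ := hx a
    obtain ⟨y, hy1, hy2⟩ := hx c
    have hββ : β * conj β = 1 := by
      rw [Complex.mul_conj, Complex.normSq_eq_norm_sq, hβ]; simp
    have hs : (Real.sqrt (6:ℕ) : ℂ) * (Real.sqrt (6:ℕ) : ℂ) = 6 := by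
      rw [← Complex.ofReal_mul, Real.mul_self_sqrt (Nat.cast_nonneg 6)]; simp
    have hsq : (Real.sqrt (6:ℕ) : ℂ) ≠ 0 := fun h => by
      rw [h, zero_mul] at hs; norm_num at hs
    have hN0 : N ≠ 0 := fun h => hN (h ▸ dvd_zero 4)
    have hyn : ‖y‖ = 1 := Complex.norm_eq_one_of_pow_eq_one hy1 hN0
    have hyc : conj y = y⁻¹ := by
      have h5 : y * conj y = 1 := by
        rw [Complex.mul_conj, Complex.normSq_eq_norm_sq, hyn]; simp
      exact eq_inv_of_mul_eq_one_right h5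
    have e1 : B' b j a * conj (B' b j c) = x * y⁻¹ / 6 := by
      simp only [B']
      rw [hx2, hy2, map_mul, map_div₀, map_mul, map_mul, Complex.conj_ofReal, Complex.conj_conj,
        ← hyc]
      have e2 : conj (δ a) * (β * δ a * x / (Real.sqrt (6:ℕ) : ℂ)) *
          (δ c * (conj β * conj (δ c) * conj y / (Real.sqrt (6:ℕ) : ℂ))) =
          (conj (δ a) * δ a) * (conj (δ c) * δ c) * (β * conj β) * (x * conj y) /
            ((Real.sqrt (6:ℕ) : ℂ) * (Real.sqrt (6:ℕ) : ℂ)) := by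
        field_simp
      rw [e2, hδδ, hδδ, hββ, hs]; ring
    rw [e1]
    exact K.div_mem (K.mul_mem (root_mem N m hm hNm ζ hζ x hx1)
      (K.inv_mem (root_mem N m hm hNm ζ hζ y hy1))) (by exact_mod_cast natCast_mem K 6)

/-- **Theorem.**
(1) Let `E 0, ..., E 6` be seven pairwise mutually unbiased orthonormal bases of `ℂ⁶` and let `K` be
a subfield of `ℂ` which contains all products `⟨e_a, v⟩⟨v, e_c⟩`, `e_a, e_c` in `E 0` and `v` in any
`E b`. Then `i ∈ K`.
(2) For `d + 1` pairwise mutually unbiased bases of `ℂ^d` the field `K` contains a square root of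
`(-1)^(d(d-1)/2) d^(d(2d-1))`.
(3) If `4 ∤ N` there are no seven pairwise mutually unbiased bases of `ℂ⁶` consisting of the standard
basis and six bases with coordinates `(1/√6)` times `N`-th roots of unity, up to a phase for every
vector and a common phase for every coordinate. -/
theorem result :
    (∀ E : Fin 7 → Fin 6 → Fin 6 → ℂ, IsComplete E → ∀ K : Subfield ℂ,
      (∀ b j a c, ip (E 0 a) (E b j) * ip (E b j) (E 0 c) ∈ K) → Complex.I ∈ K) ∧
    (∀ d : ℕ, 0 < d → ∀ E : Fin (d + 1) → Fin d → Fin d → ℂ, IsComplete E → ∀ K : Subfield ℂ,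
      (∀ b j a c, ip (E 0 a) (E b j) * ip (E b j) (E 0 c) ∈ K) →
      ∃ x ∈ K, x ^ 2 = (-1) ^ (d * (d - 1) / 2) * (d:ℂ) ^ (d * (2 * d - 1))) ∧
    (∀ N, ¬ 4 ∣ N → ∀ δ : Fin 6 → ℂ, (∀ k, ‖δ k‖ = 1) → ¬ ∃ B : Fin 6 → Fin 6 → Fin 6 → ℂ,
      (∀ b, IsONB (B b)) ∧ (∀ b, MU (std 6) (B b)) ∧ (∀ b b', b ≠ b' → MU (B b) (B b')) ∧
        ∀ b, RootCoord N δ (B b)) := by
  refine ⟨?_, ?_, ?_⟩
  · intro E hE K hK
    obtain ⟨h0, h1, h2⟩ := co_props E hE
    refine P355.I_mem (co E) h0 h1 h2 K fun b j a c => ?_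
    unfold co
    rw [conj_ip]
    exact hK b.succ j a c
  · intro d hd E hE K hK
    obtain ⟨h0, h1, h2⟩ := co_props E hE
    refine ⟨(P355.X (co E)).det, P355.det_mem (co E) K fun b j a c => ?_,
      P355.det_sq hd (co E) h0 h1 h2⟩
    unfold co
    rw [conj_ip]
    exact hK b.succ j a c
  · rintro N hN δ hδ ⟨B, h1, h0, h2, hr⟩
    exact roots_case N hN δ hδ B h1 h0 h2 hr

end Vale.Agent.Results.P355.CompleteSetField
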