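import Vale.Agent.Lib.P355.Core

/-!
# P355: orders `N` for which no three mutually unbiased bases of `ℂ⁶` have coordinates in the
`N`-th roots of unity (up to phases)

The standard basis, `B` and `C` are pairwise mutually unbiased iff `B`, `C` are orthonormal bases
whose vectors have all coordinates of modulus `1/√6` and `|⟨b, c⟩|² = 1/6`. The theorem excludes this
when all these coordinates are `N`-th roots of unity (times `1/√6`, a phase for every vector and a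
common phase for every coordinate), for every `N` for which `2` or `3` is self-conjugate.
-/

namespace Vale.Agent.Results.P355.SelfConjugateOrders

open ComplexConjugate Finset

/-- the standard inner product of `ℂ^d` -/
noncomputable def ip {d : ℕ} (u v : Fin d → ℂ) : ℂ := ∑ k, conj (u k) * v k

/-- `B 0, ..., B (d-1)` is an orthonormal basis of `ℂ^d` -/
def IsONB {d : ℕ} (B : Fin d → Fin d → ℂ) : Prop := ∀ i j, ip (B i) (B j) = if i = j then 1 else 0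

/-- the bases `B` and `C` are mutually unbiased -/
def MU {d : ℕ} (B C : Fin d → Fin d → ℂ) : Prop := ∀ i j, ‖ip (B i) (C j)‖ ^ 2 = 1 / (d : ℝ)

/-- the standard basis -/
def std (d : ℕ) : Fin d → Fin d → ℂ := fun i k => if i = k then 1 else 0

/-- the vectors of the basis `B` of `ℂ^d` have coordinates `(1/√d) * β i * δ k * ζ` with a phase
`β i` for the vector, the given phase `δ k` for the coordinate and an `N`-th root of unity `ζ` -/
def RootCoord {d : ℕ} (N : ℕ) (δ : Fin d → ℂ) (B : Fin d → Fin d → ℂ) : Prop :=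
  ∀ i, ∃ β : ℂ, ‖β‖ = 1 ∧ ∀ k, ∃ ζ : ℂ, ζ ^ N = 1 ∧ B i k = β * δ k * ζ / (Real.sqrt d : ℂ)

/-- `-1` is a power of `p` modulo `N` (`p` is self-conjugate modulo `N`) -/
def SelfConj (p N : ℕ) : Prop := ∃ j : ℕ, N ∣ p ^ j + 1

/-- the excluded orders in dimension six -/
def Excluded (N : ℕ) : Prop :=
  (∃ m, Odd m ∧ (N = m ∨ N = 2 * m) ∧ SelfConj 2 m) ∨ (¬ 3 ∣ N ∧ SelfConj 3 N)

/-! ### Proofs -/

/-- the inner product of two vectors with root-of-unity coordinates -/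
theorem ip_eq {d : ℕ} {N : ℕ} {δ : Fin d → ℂ} (hδ : ∀ k, ‖δ k‖ = 1) {B C : Fin d → Fin d → ℂ}
    (hB : RootCoord N δ B) (hC : RootCoord N δ C) (i j : Fin d) :
    ∃ ζ : Fin d → ℂ, (∀ k, ζ k ^ N = 1) ∧ ‖ip (B i) (C j)‖ ^ 2 * (d:ℝ) ^ 2 = ‖∑ k, ζ k‖ ^ 2 := by
  obtain ⟨β, hβ, h1⟩ := hB i
  obtain ⟨γ, hγ, h2⟩ := hC j
  choose x hx1 hx2 using h1
  choose y hy1 hy2 using h2
  refine ⟨fun k => conj (x k) * y k, fun k => ?_, ?_⟩
  · rw [mul_pow, ← map_pow, hx1, hy1]; simp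
  · have hs : (Real.sqrt d : ℂ) * (Real.sqrt d : ℂ) = (d:ℂ) := by
      rw [← Complex.ofReal_mul, Real.mul_self_sqrt (Nat.cast_nonneg d)]; simp
    by_cases hd : (d:ℝ) = 0
    · have : d = 0 := by exact_mod_cast hd
      subst this
      simp [ip]
    have hdc : (d:ℂ) ≠ 0 := by exact_mod_cast hd
    have hsq : (Real.sqrt d : ℂ) ≠ 0 := fun h => hdc (by rw [← hs, h, zero_mul])
    have e1 : ip (B i) (C j) * d = (conj β * γ) * ∑ k, conj (x k) * y k := by
      unfold ip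
      rw [sum_mul, mul_sum]
      refine sum_congr rfl fun k _ => ?_
      rw [hx2 k, hy2 k, map_div₀, map_mul, map_mul, Complex.conj_ofReal]
      have h3 : conj (δ k) * δ k = 1 := by
        rw [mul_comm, Complex.mul_conj, Complex.normSq_eq_norm_sq, hδ k]; simp
      rw [← hs]
      field_simp
      linear_combination (conj β * conj (x k) * γ * y k) * h3
    have e2 : ‖ip (B i) (C j)‖ * d = ‖∑ k, conj (x k) * y k‖ := by
      have h4 := congrArg (fun t : ℂ => ‖t‖) e1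
      simp only [norm_mul, Complex.norm_natCast, RCLike.norm_conj, hβ, hγ, one_mul] at h4
      exact h4
    rw [← mul_pow, e2]

/-- the general non-existence lemma -/
theorem no_vec (d p N : ℕ) (hp : p.Prime) (h1 : p ∣ d) (h2 : ¬ p ^ 2 ∣ d) (hco : p.Coprime N)
    (hs : SelfConj p N) (ζ : Fin d → ℂ) (hζ : ∀ k, ζ k ^ N = 1) : ‖∑ k, ζ k‖ ^ 2 ≠ d := by
  obtain ⟨j, hj⟩ := hs
  intro h
  have h3 := P355.core p d N j hp h1 h2 hj hco (fun _ : Fin d => (1:ℤ)) (fun _ => Or.inl rfl) ζ hζ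
  apply h3
  simp only [Int.cast_one, one_mul]
  rw [Complex.mul_conj, Complex.normSq_eq_norm_sq, h]
  simp

/-- the case `p = 2`, `N = 2 m` -/
theorem no_vec2 (m : ℕ) (hm : Odd m) (hs : SelfConj 2 m) (ζ : Fin 6 → ℂ)
    (hζ : ∀ k, ζ k ^ (2 * m) = 1) : ‖∑ k, ζ k‖ ^ 2 ≠ 6 := by
  obtain ⟨j, hj⟩ := hs
  intro h
  have hsgn : ∀ k, ∃ ε : ℤ, (ε = 1 ∨ (2 = 2 ∧ ε = -1)) ∧ ((ε:ℂ) * ζ k) ^ m = 1 := by
    intro k
    have h1 : ζ k ^ m * ζ k ^ m = 1 := by rw [← pow_add, ← two_mul]; exact hζ k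
    rcases mul_self_eq_one_iff.1 h1 with h2 | h2
    · exact ⟨1, Or.inl rfl, by simpa using h2⟩
    · refine ⟨-1, Or.inr ⟨rfl, rfl⟩, ?_⟩
      rw [mul_pow, h2]
      push_cast
      rw [hm.neg_one_pow]; norm_num
  choose ε hε1 hε2 using hsgn
  have h3 := P355.core 2 6 m j Nat.prime_two (by norm_num) (by norm_num) hj
    (Nat.coprime_two_left.2 hm) ε hε1 (fun k => (ε k : ℂ) * ζ k) hε2
  apply h3
  have h4 : ∀ k, (ε k : ℂ) * ((ε k : ℂ) * ζ k) = ζ k := by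
    intro k
    rcases hε1 k with h | ⟨_, h⟩ <;> rw [h] <;> push_cast <;> ring
  simp only [h4]
  rw [Complex.mul_conj, Complex.normSq_eq_norm_sq, h]
  norm_num

theorem no_vec6 (N : ℕ) (hN : Excluded N) (ζ : Fin 6 → ℂ) (hζ : ∀ k, ζ k ^ N = 1) :
    ‖∑ k, ζ k‖ ^ 2 ≠ 6 := by
  rcases hN with ⟨m, hm, h | h, hs⟩ | ⟨h3, hs⟩
  · subst h
    have := no_vec 6 2 N Nat.prime_two (by norm_num) (by norm_num) (Nat.coprime_two_left.2 hm) hs
      ζ hζ
    exact_mod_cast this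
  · subst h
    exact no_vec2 m hm hs ζ hζ
  · have := no_vec 6 3 N Nat.prime_three (by norm_num) (by norm_num)
      ((Nat.Prime.coprime_iff_not_dvd Nat.prime_three).2 h3) hs ζ hζ
    exact_mod_cast this

/-- lifting self-conjugacy to powers of an odd modulus -/
theorem lift_pow (m : ℕ) (hm : Odd m) (x : ℕ) (h : m ∣ x + 1) (a : ℕ) :
    m ^ (a + 1) ∣ x ^ (m ^ a) + 1 := by
  induction a with
  | zero => simpa using h
  | succ a ih =>
    set y : ℤ := -((x:ℤ) ^ (m ^ a)) with hy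
    have h1 : (m:ℤ) ^ (a + 1) ∣ y - 1 := by
      have : ((m ^ (a + 1) : ℕ) : ℤ) ∣ ((x ^ (m ^ a) + 1 : ℕ) : ℤ) := Int.natCast_dvd_natCast.2 ih
      push_cast at this
      have h2 : y - 1 = -((x:ℤ) ^ (m ^ a) + 1) := by rw [hy]; ring
      rw [h2]
      exact (dvd_neg).2 this
    have h2 : (m:ℤ) ∣ ∑ i ∈ range m, y ^ i := by
      have h3 : (m:ℤ) ∣ y - 1 := (dvd_pow_self (m:ℤ) (Nat.succ_ne_zero a)).trans h1
      have h4 : (m:ℤ) ∣ ∑ i ∈ range m, (y ^ i - 1) :=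
        Finset.dvd_sum fun i _ => h3.trans (by simpa using sub_dvd_pow_sub_pow y 1 i)
      have h5 : ∑ i ∈ range m, (y ^ i - 1) = ∑ i ∈ range m, y ^ i - m := by
        rw [sum_sub_distrib]; simp
      rw [h5] at h4
      have := dvd_add h4 (dvd_refl (m:ℤ))
      simpa using this
    have h3 : (m:ℤ) ^ (a + 2) ∣ y ^ m - 1 := by
      rw [← mul_geom_sum y m, pow_succ]
      exact mul_dvd_mul h1 h2
    have h4 : y ^ m - 1 = -((x:ℤ) ^ (m ^ (a + 1)) + 1) := by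
      rw [hy, neg_pow, hm.neg_one_pow, ← pow_mul, ← pow_succ]; ring
    rw [h4, dvd_neg] at h3
    exact_mod_cast h3

theorem odd_pow_excl (m : ℕ) (hm : Odd m) (h : SelfConj 2 m) (a : ℕ) :
    Excluded (m ^ a) ∧ Excluded (2 * m ^ a) := by
  have h1 : SelfConj 2 (m ^ a) := by
    obtain ⟨j, hj⟩ := h
    rcases a with _ | a
    · exact ⟨0, by simp⟩
    · refine ⟨j * m ^ a, ?_⟩
      rw [pow_mul]
      exact lift_pow m hm (2 ^ j) hj a
  exact ⟨Or.inl ⟨m ^ a, hm.pow, Or.inl rfl, h1⟩, Or.inl ⟨m ^ a, hm.pow, Or.inr rfl, h1⟩⟩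

theorem four_pow_excl (m j : ℕ) (hm : Odd m) (hj : Odd j) (h : m ∣ 3 ^ j + 1) (a : ℕ) :
    Excluded (4 * m ^ a) := by
  have hdiv : ∀ t, Odd t → 4 ∣ 3 ^ t + 1 := by
    intro t ht
    have := ht.nat_add_dvd_pow_add_pow 3 1
    simpa using this
  have hfour : ∀ t, m ^ a ∣ 3 ^ t + 1 → Odd t → 4 * m ^ a ∣ 3 ^ t + 1 := fun t h1 h2 =>
    Nat.Coprime.mul_dvd_of_dvd_of_dvd
      (Nat.Coprime.pow_left 2 (Nat.coprime_two_left.2 hm.pow) : (2 ^ 2).Coprime (m ^ a))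
      (hdiv t h2) h1
  have h1 : ∃ t, Odd t ∧ 4 * m ^ a ∣ 3 ^ t + 1 := by
    rcases a with _ | a
    · exact ⟨1, odd_one, by simp⟩
    · refine ⟨j * m ^ a, hj.mul hm.pow, hfour _ ?_ (hj.mul hm.pow)⟩
      rw [pow_mul]
      exact lift_pow m hm (3 ^ j) h a
  obtain ⟨t, ht, h2⟩ := h1
  refine Or.inr ⟨fun h3 => ?_, t, h2⟩
  have h4 : 3 ∣ 3 ^ t + 1 := h3.trans h2
  have h5 : 3 ∣ 3 ^ t := dvd_pow_self 3 ht.pos.ne'
  have h6 : 3 ∣ 1 := (Nat.dvd_add_right h5).1 h4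
  omega

/-- **Theorem.**
(1) Let `N` be an excluded order: `N = m` or `2m` with `m` odd and `-1` a power of `2` modulo `m`, or
`3 ∤ N` and `-1` a power of `3` modulo `N`. Then there are no three pairwise mutually unbiased
orthonormal bases of `ℂ⁶` consisting of the standard basis and two bases with coordinates
`(1/√6)` times `N`-th roots of unity, up to a phase for every vector and a common phase for every
coordinate.
(2) Moreover not even one pair of vectors `b`, `c` of this form satisfies `|⟨b, c⟩|² = 1/6`.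
(3) The excluded orders contain, for every odd `m` for which `-1` is a power of `2` modulo `m`
(for example `3, 5, 9, 11, 13, 17, 19, 25, 27, 29, 33`), all `m^a` and `2 m^a`, and, for every odd
`m` dividing `3^j + 1` with `j` odd (for example `7`), all `4 m^a`.
(4) The same in every dimension `d` with a prime `p` dividing `d` exactly once: if `p ∤ N` and `-1`
is a power of `p` modulo `N` then no two vectors of `ℂ^d` of this form satisfy
`|⟨b, c⟩|² = 1/d`. -/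
theorem result :
    (∀ N, Excluded N → ∀ δ : Fin 6 → ℂ, (∀ k, ‖δ k‖ = 1) → ¬ ∃ B C : Fin 6 → Fin 6 → ℂ,
      IsONB B ∧ IsONB C ∧ MU (std 6) B ∧ MU (std 6) C ∧ MU B C ∧
        RootCoord N δ B ∧ RootCoord N δ C) ∧
    (∀ N, Excluded N → ∀ δ : Fin 6 → ℂ, (∀ k, ‖δ k‖ = 1) → ∀ B C : Fin 6 → Fin 6 → ℂ,
      RootCoord N δ B → RootCoord N δ C → ∀ i j, ‖ip (B i) (C j)‖ ^ 2 ≠ 1 / 6) ∧
    ((∀ m, Odd m → SelfConj 2 m → ∀ a, Excluded (m ^ a) ∧ Excluded (2 * m ^ a)) ∧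
      (∀ m ∈ ({3, 5, 9, 11, 13, 17, 19, 25, 27, 29, 33} : Finset ℕ), SelfConj 2 m) ∧
      (∀ m j, Odd m → Odd j → m ∣ 3 ^ j + 1 → ∀ a, Excluded (4 * m ^ a)) ∧ 7 ∣ 3 ^ 3 + 1) ∧
    (∀ d p N : ℕ, p.Prime → p ∣ d → ¬ p ^ 2 ∣ d → p.Coprime N → SelfConj p N →
      ∀ δ : Fin d → ℂ, (∀ k, ‖δ k‖ = 1) → ∀ B C : Fin d → Fin d → ℂ,
      RootCoord N δ B → RootCoord N δ C → ∀ i j, ‖ip (B i) (C j)‖ ^ 2 ≠ 1 / (d:ℝ)) := by
  have part2 : ∀ N, Excluded N → ∀ δ : Fin 6 → ℂ, (∀ k, ‖δ k‖ = 1) →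
      ∀ B C : Fin 6 → Fin 6 → ℂ, RootCoord N δ B → RootCoord N δ C →
      ∀ i j, ‖ip (B i) (C j)‖ ^ 2 ≠ 1 / 6 := by
    intro N hN δ hδ B C hB hC i j h
    obtain ⟨ζ, hζ, h1⟩ := ip_eq hδ hB hC i j
    apply no_vec6 N hN ζ hζ
    rw [← h1, h]; norm_num
  refine ⟨?_, part2, ⟨fun m hm h a => odd_pow_excl m hm h a, ?_,
    fun m j hm hj h a => four_pow_excl m j hm hj h a, by norm_num⟩, ?_⟩
  · rintro N hN δ hδ ⟨B, C, _, _, _, _, hMU, hB, hC⟩
    apply part2 N hN δ hδ B C hB hC 0 0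
    have := hMU 0 0
    exact_mod_cast this
  · intro m hm
    simp only [Finset.mem_insert, Finset.mem_singleton] at hm
    rcases hm with h | h | h | h | h | h | h | h | h | h | h <;> subst h
    · exact ⟨1, by norm_num⟩
    · exact ⟨2, by norm_num⟩
    · exact ⟨3, by norm_num⟩
    · exact ⟨5, by norm_num⟩
    · exact ⟨6, by norm_num⟩
    · exact ⟨4, by norm_num⟩
    · exact ⟨9, by norm_num⟩
    · exact ⟨10, by norm_num⟩
    · exact ⟨9, by norm_num⟩
    · exact ⟨14, by norm_num⟩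
    · exact ⟨5, by norm_num⟩
  · intro d p N hp h1 h2 hco hs δ hδ B C hB hC i j h
    obtain ⟨ζ, hζ, h3⟩ := ip_eq hδ hB hC i j
    apply no_vec d p N hp h1 h2 hco hs ζ hζ
    rw [← h3, h]
    have hd : (d:ℝ) ≠ 0 := by
      intro h0
      have : d = 0 := by exact_mod_cast h0
      exact h2 (this ▸ dvd_zero _)
    field_simp

end Vale.Agent.Results.P355.SelfConjugateOrders
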